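import Vale.Agent.P340.Unit.Trans

/-!
Weak normalisation implies strong normalisation for pure type systems with a unit sort for rules.
-/

namespace Vale.Agent.Results.P340.UnitSort

open Vale.Agent.P340.Hub Vale.Agent.P340.Unit

theorem result : ∀ (S : Type) (Ax : S → S → Prop) (Ru : S → S → S → Prop) (o : S),
    (∃ k, Ax o k) → (∀ s, Ru o s s) →
    (∃ T : S → Prop, T o ∧ ∀ s t, T t → ∃ t', T t' ∧ Ru s t t') →
    (∀ M : Tm S, Legal Ax Ru M → HasNormalForm M) →
    ∀ M : Tm S, Legal Ax Ru M → ¬ Diverges M :=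
  fun _ _ _ _ hk hi hT wn _ hM => UnitAt.strong ⟨hk, hi, hT⟩ wn hM

end Vale.Agent.Results.P340.UnitSort
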